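import Mathlib

namespace Vale.Agent.Lib.P160.H47

open Finset BigOperators

/-- real inequality behind one step of the comparison -/
theorem step_real (N s k j : ℝ) (hN : 16 ≤ N) (hs : 4 ≤ s) (hss : s * s = N) (hk0 : 0 ≤ k)
    (hk : k ≤ N * s) (hj0 : 0 ≤ j) (hjN : j ≤ N) :
    Real.exp ((j - N / 2) / (N * N) - k / (2 * N * N ^ 2) - 1 / N ^ 2)
      ≤ 1 + (j - N / 2) / (N * N) - k / (2 * N * N ^ 2) := by
  have hNpos : 0 < N := by linarith
  have hNN : 0 < N * N := by positivity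
  have h4s : 4 * s ≤ N := by nlinarith
  have hkN : 4 * k ≤ N * N := by nlinarith
  have hX1 : (j - N / 2) / (N * N) ≤ 1 / (2 * N) := by
    rw [div_le_div_iff₀ hNN (by positivity)]
    nlinarith
  have hX2 : -(1 / (2 * N)) ≤ (j - N / 2) / (N * N) := by
    rw [neg_le, ← neg_div, div_le_div_iff₀ hNN (by positivity)]
    nlinarith
  have hd1 : k / (2 * N * N ^ 2) ≤ 1 / (8 * N) := by
    rw [div_le_div_iff₀ (by positivity) (by positivity)]
    nlinarith [mul_le_mul_of_nonneg_left hkN (by positivity : (0:ℝ) ≤ 2 * N)]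
  have hd0 : 0 ≤ k / (2 * N * N ^ 2) := by positivity
  have hd2 : 1 / N ^ 2 ≤ 1 / (16 * N) := by
    rw [div_le_div_iff₀ (by positivity) (by positivity)]
    nlinarith
  have hd3 : 0 ≤ 1 / N ^ 2 := by positivity
  have e8 : 1 / (8 * N) = (1 / N) / 8 := by field_simp
  have e16 : 1 / (16 * N) = (1 / N) / 16 := by field_simp
  have e2 : 1 / (2 * N) = (1 / N) / 2 := by field_simp
  have hinv : 0 < 1 / N := by positivity
  have hinv1 : 1 / N ≤ 1 := by
    rw [div_le_one hNpos]; linarith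
  set y : ℝ := (j - N / 2) / (N * N) - k / (2 * N * N ^ 2) - 1 / N ^ 2 with hy
  have hy1 : y ≤ 1 / N := by rw [hy]; linarith
  have hy2 : -(1 / N) ≤ y := by rw [hy]; linarith
  have habs : |y| ≤ 1 := abs_le.mpr ⟨by linarith, by linarith⟩
  have hexp := (abs_le.mp (Real.abs_exp_sub_one_sub_id_le habs)).2
  have hysq : y ^ 2 ≤ 1 / N ^ 2 := by
    have := sq_le_sq' hy2 hy1
    rwa [one_div_pow] at this
  have : y + 1 / N ^ 2 = (j - N / 2) / (N * N) - k / (2 * N * N ^ 2) := by rw [hy]; ring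
  linarith

/-- real inequality: the exponent stays above `-3/2` -/
theorem expo_real (N s k j : ℝ) (hN : 16 ≤ N) (hs : 4 ≤ s) (hss : s * s = N) (hk0 : 0 ≤ k)
    (hk : k ≤ N * s) (hj : N / 2 - s ≤ j) :
    -(3 / 2) ≤ k * (j - N / 2) / (N * N) - k * (k - 1) / (4 * N * N ^ 2) - k / N ^ 2 := by
  have hNpos : 0 < N := by linarith
  have hNN : 0 < N * N := by positivity
  have h4s : 4 * s ≤ N := by nlinarith
  have hkN : 4 * k ≤ N * N := by nlinarith
  have hks : k * s ≤ N * N := by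
    calc k * s ≤ (N * s) * s := mul_le_mul_of_nonneg_right hk (by linarith)
      _ = N * (s * s) := by ring
      _ = N * N := by rw [hss]
  have hkk : k * k ≤ N * N * N := by
    calc k * k ≤ (N * s) * (N * s) := mul_le_mul hk hk hk0 (by positivity)
      _ = N * N * (s * s) := by ring
      _ = N * N * N := by rw [hss]
  have h1 : -1 ≤ k * (j - N / 2) / (N * N) := by
    rw [le_div_iff₀ hNN]
    nlinarith [mul_nonneg hk0 (by linarith : (0:ℝ) ≤ j - N / 2 + s)]
  have h2 : k * (k - 1) / (4 * N * N ^ 2) ≤ 1 / 4 := by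
    rw [div_le_iff₀ (by positivity)]
    nlinarith
  have h3 : k / N ^ 2 ≤ 1 / 4 := by
    rw [div_le_iff₀ (by positivity)]
    nlinarith
  linarith

theorem exp_neg_three_half : (1 : ℝ) / 5 ≤ Real.exp (-(3 / 2)) := by
  have h3 : Real.exp (3 / 2) * Real.exp (3 / 2) = Real.exp 1 ^ 3 := by
    rw [← Real.exp_add, ← Real.exp_nat_mul]; norm_num
  have he : Real.exp 1 < 2.7182818286 := Real.exp_one_lt_d9
  have hpos : 0 < Real.exp (3 / 2) := Real.exp_pos _
  have h0 : 0 < Real.exp 1 := Real.exp_pos 1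
  have h25 : Real.exp 1 ^ 3 < 25 := by
    calc Real.exp 1 ^ 3 < 2.7182818286 ^ 3 := pow_lt_pow_left₀ he h0.le (by norm_num)
      _ < 25 := by norm_num
  have h5 : Real.exp (3 / 2) ≤ 5 := by
    by_contra hc
    rw [not_le] at hc
    nlinarith
  rw [Real.exp_neg, one_div]
  exact inv_anti₀ hpos h5

theorem sqrt_facts (n : ℕ) (hn : 16 ≤ n) :
    (16 : ℝ) ≤ n ∧ 4 ≤ Real.sqrt n ∧ Real.sqrt n * Real.sqrt n = n := by
  have hN : (16 : ℝ) ≤ n := by exact_mod_cast hn
  refine ⟨hN, ?_, Real.mul_self_sqrt (by linarith)⟩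
  have h16 : Real.sqrt 16 = 4 := by
    rw [show (16 : ℝ) = 4 ^ 2 by norm_num, Real.sqrt_sq (by norm_num)]
  rw [← h16]
  exact Real.sqrt_le_sqrt hN

/-- comparison profile -/
noncomputable def psi (n : ℕ) (k : ℕ) (j : ℝ) : ℝ :=
  Real.exp ((k : ℝ) * (j - n / 2) / ((n : ℝ) * n) - (k : ℝ) * ((k : ℝ) - 1) / (4 * (n : ℝ) * (n : ℝ) ^ 2)
    - (k : ℝ) / (n : ℝ) ^ 2)

theorem psi_pos (n k : ℕ) (j : ℝ) : 0 < psi n k j := Real.exp_pos _

theorem psi_step (n : ℕ) (hn : 16 ≤ n) (k : ℕ) (hk : (k : ℝ) ≤ n * Real.sqrt n) (j : ℝ)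
    (hj0 : 0 ≤ j) (hjn : j ≤ n) :
    psi n (k + 1) j
      ≤ psi n k j * (1 + (j - n / 2) / ((n : ℝ) * n) - (k : ℝ) / (2 * (n : ℝ) * (n : ℝ) ^ 2)) := by
  obtain ⟨hN, hs4, hss⟩ := sqrt_facts n hn
  have hNpos : (0 : ℝ) < n := by linarith
  have hpsi : psi n (k + 1) j = psi n k j *
      Real.exp ((j - n / 2) / ((n : ℝ) * n) - (k : ℝ) / (2 * (n : ℝ) * (n : ℝ) ^ 2)
        - 1 / (n : ℝ) ^ 2) := by
    unfold psi
    rw [← Real.exp_add]
    congr 1
    push_cast
    field_simp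
    ring
  rw [hpsi]
  exact mul_le_mul_of_nonneg_left
    (step_real n (Real.sqrt n) k j hN hs4 hss (Nat.cast_nonneg k) hk hj0 hjn) (psi_pos n k j).le

theorem psi_ge (n : ℕ) (hn : 16 ≤ n) (k : ℕ) (hk : (k : ℝ) ≤ n * Real.sqrt n) (j : ℝ)
    (hj : (n : ℝ) / 2 - Real.sqrt n ≤ j) : 1 / 5 ≤ psi n k j := by
  obtain ⟨hN, hs4, hss⟩ := sqrt_facts n hn
  refine le_trans exp_neg_three_half ?_
  unfold psi
  exact Real.exp_le_exp.mpr
    (expo_real n (Real.sqrt n) k j hN hs4 hss (Nat.cast_nonneg k) hk hj)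

section chain

variable {Ω : Type} [Fintype Ω]

/-- lazy chain weights -/
noncomputable def uu (q : Ω → Ω → ℝ) (n : ℕ) : ℕ → Ω → ℝ
  | 0 => fun _ => 1
  | k + 1 => fun S =>
      uu q n k S * (1 - (∑ S', q S S') / n) + (1 / (n : ℝ)) * ∑ S', q S' S * uu q n k S'

theorem uu_nonneg (q : Ω → Ω → ℝ) (n : ℕ) (hn : 0 < n) (hq0 : ∀ S S', 0 ≤ q S S')
    (hout : ∀ S, ∑ S', q S S' ≤ n) : ∀ k S, 0 ≤ uu q n k S := by
  intro k
  induction k with
  | zero => intro S; show (0 : ℝ) ≤ 1; norm_num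
  | succ k ih =>
    intro S
    have hN : (0 : ℝ) < n := by exact_mod_cast hn
    show 0 ≤ uu q n k S * (1 - (∑ S', q S S') / n) + (1 / (n : ℝ)) * ∑ S', q S' S * uu q n k S'
    have h1 : 0 ≤ 1 - (∑ S', q S S') / (n : ℝ) := by
      rw [sub_nonneg, div_le_one hN]; exact hout S
    exact add_nonneg (mul_nonneg (ih S) h1)
      (mul_nonneg (by positivity) (Finset.sum_nonneg fun S' _ => mul_nonneg (hq0 S' S) (ih S')))

theorem uu_ge_psi (q : Ω → Ω → ℝ) (sz : Ω → ℕ) (n : ℕ) (hn : 16 ≤ n)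
    (hq0 : ∀ S S', 0 ≤ q S S')
    (hsz : ∀ S' S, q S' S ≠ 0 → sz S' = sz S ∨ sz S' + 1 = sz S)
    (hent : ∀ S, ∑ S' ∈ univ.filter (fun S' => sz S' + 1 = sz S), q S' S ≤ 1 / 2)
    (hbal : ∀ S, ∑ S', q S' S - ∑ S', q S S' = ((sz S : ℝ) - n / 2) / n)
    (hout : ∀ S, ∑ S', q S S' ≤ n) (hszn : ∀ S, sz S ≤ n) :
    ∀ k : ℕ, (k : ℝ) ≤ n * Real.sqrt n → ∀ S, psi n k (sz S) ≤ uu q n k S := by
  have hN16 : (16 : ℝ) ≤ n := by exact_mod_cast hn
  have hNpos : (0 : ℝ) < n := by linarith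
  intro k
  induction k with
  | zero =>
    intro _ S
    show psi n 0 (sz S) ≤ 1
    unfold psi
    simp
  | succ k ih =>
    intro hk S
    have hk' : (k : ℝ) ≤ n * Real.sqrt n := by
      have : (k : ℝ) ≤ ((k + 1 : ℕ) : ℝ) := by push_cast; linarith
      linarith
    have ihk := ih hk'
    have hk0 : (0 : ℝ) ≤ k := Nat.cast_nonneg k
    have hPpos : 0 < psi n k (sz S) := psi_pos _ _ _
    have hPP' : psi n k ((sz S : ℝ) - 1) = psi n k (sz S) * Real.exp (-((k : ℝ) / ((n : ℝ) * n))) := by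
      unfold psi
      rw [← Real.exp_add]
      congr 1
      field_simp
      ring
    have hdiff : psi n k (sz S) - psi n k ((sz S : ℝ) - 1)
        ≤ psi n k (sz S) * ((k : ℝ) / ((n : ℝ) * n)) := by
      rw [hPP']
      have := Real.add_one_le_exp (-((k : ℝ) / ((n : ℝ) * n)))
      nlinarith
    have hdiff0 : 0 ≤ psi n k (sz S) - psi n k ((sz S : ℝ) - 1) := by
      rw [hPP']
      have h1 : Real.exp (-((k : ℝ) / ((n : ℝ) * n))) ≤ 1 := by
        rw [Real.exp_le_one_iff]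
        have : 0 ≤ (k : ℝ) / ((n : ℝ) * n) := by positivity
        linarith
      nlinarith
    have hin : psi n k (sz S) * (∑ S', q S' S)
        - (1 / 2) * (psi n k (sz S) - psi n k ((sz S : ℝ) - 1)) ≤ ∑ S', q S' S * uu q n k S' := by
      have h1 : ∑ S', q S' S * (if sz S' + 1 = sz S then psi n k ((sz S : ℝ) - 1) else psi n k (sz S))
          ≤ ∑ S', q S' S * uu q n k S' := by
        apply Finset.sum_le_sum
        intro S' _
        by_cases hq : q S' S = 0
        · rw [hq]; simp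
        · apply mul_le_mul_of_nonneg_left _ (hq0 S' S)
          rcases hsz S' S hq with h | h
          · have hne : ¬ (sz S' + 1 = sz S) := by omega
            rw [if_neg hne]
            have := ihk S'
            rw [h] at this
            exact this
          · rw [if_pos h]
            have := ihk S'
            have hc : ((sz S' : ℕ) : ℝ) = (sz S : ℝ) - 1 := by
              rw [← h]; push_cast; ring
            rw [hc] at this
            exact this
      have h2 : ∑ S', q S' S * (if sz S' + 1 = sz S then psi n k ((sz S : ℝ) - 1) else psi n k (sz S))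
          = psi n k (sz S) * (∑ S', q S' S) - (psi n k (sz S) - psi n k ((sz S : ℝ) - 1))
              * ∑ S' ∈ univ.filter (fun S' => sz S' + 1 = sz S), q S' S := by
        rw [Finset.sum_filter, Finset.mul_sum, Finset.mul_sum, ← Finset.sum_sub_distrib]
        apply Finset.sum_congr rfl
        intro S' _
        split_ifs <;> ring
      have h3 := hent S
      nlinarith
    show psi n (k + 1) (sz S)
      ≤ uu q n k S * (1 - (∑ S', q S S') / n) + (1 / (n : ℝ)) * ∑ S', q S' S * uu q n k S'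
    have hstep := psi_step n hn k hk' (sz S) (by positivity) (by exact_mod_cast hszn S)
    have hu := ihk S
    have h1 : 0 ≤ 1 - (∑ S', q S S') / (n : ℝ) := by
      rw [sub_nonneg, div_le_one hNpos]; exact hout S
    have hb := hbal S
    have hinv : (0 : ℝ) ≤ 1 / n := by positivity
    calc psi n (k + 1) (sz S)
        ≤ psi n k (sz S) * (1 + ((sz S : ℝ) - n / 2) / ((n : ℝ) * n)
            - (k : ℝ) / (2 * (n : ℝ) * (n : ℝ) ^ 2)) := hstep
      _ = psi n k (sz S) * (1 - (∑ S', q S S') / n) + (1 / (n : ℝ)) * (psi n k (sz S) * (∑ S', q S' S)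
            - (1 / 2) * (psi n k (sz S) * ((k : ℝ) / ((n : ℝ) * n)))) := by
          have hX : ((sz S : ℝ) - n / 2) / ((n : ℝ) * n)
              = ((∑ S', q S' S) - (∑ S', q S S')) / n := by
            rw [hb]; field_simp
          rw [hX]
          field_simp
          ring
      _ ≤ psi n k (sz S) * (1 - (∑ S', q S S') / n) + (1 / (n : ℝ)) * (psi n k (sz S) * (∑ S', q S' S)
            - (1 / 2) * (psi n k (sz S) - psi n k ((sz S : ℝ) - 1))) := by
          have := mul_le_mul_of_nonneg_left hdiff hinv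
          nlinarith
      _ ≤ uu q n k S * (1 - (∑ S', q S S') / n) + (1 / (n : ℝ)) * ∑ S', q S' S * uu q n k S' :=
          add_le_add (mul_le_mul_of_nonneg_right hu h1) (mul_le_mul_of_nonneg_left hin hinv)

theorem mass_step (q : Ω → Ω → ℝ) (f : Ω → ℝ) (n : ℕ) (hn : 0 < n)
    (hq0 : ∀ S S', 0 ≤ q S S') (hf : ∀ S S', q S S' ≠ 0 → f S < f S')
    (hout : ∀ S, ∑ S', q S S' ≤ n) (x : ℝ) (k : ℕ) :
    ∑ S ∈ univ.filter (fun S => f S ≤ x), uu q n (k + 1) S
      ≤ ∑ S ∈ univ.filter (fun S => f S ≤ x), uu q n k S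
        - (1 / (n : ℝ)) * ∑ S ∈ univ.filter (fun S => f S = x), uu q n k S * ∑ S', q S S' := by
  have hN : (0 : ℝ) < n := by exact_mod_cast hn
  have hu := uu_nonneg q n hn hq0 hout k
  have hdouble : ∑ S ∈ univ.filter (fun S => f S ≤ x), ∑ S', q S' S * uu q n k S'
      ≤ ∑ S' ∈ univ.filter (fun S' => f S' < x), uu q n k S' * ∑ S, q S' S := by
    rw [Finset.sum_comm, Finset.sum_filter]
    apply Finset.sum_le_sum
    intro S' _
    split_ifs with h
    · rw [Finset.mul_sum]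
      calc ∑ S ∈ univ.filter (fun S => f S ≤ x), q S' S * uu q n k S'
          ≤ ∑ S, q S' S * uu q n k S' :=
            Finset.sum_le_sum_of_subset_of_nonneg (Finset.filter_subset _ _)
              (fun S _ _ => mul_nonneg (hq0 S' S) (hu S'))
        _ = ∑ S, uu q n k S' * q S' S := Finset.sum_congr rfl (fun S _ => mul_comm _ _)
    · apply le_of_eq
      apply Finset.sum_eq_zero
      intro S hS
      rw [Finset.mem_filter] at hS
      have hq : q S' S = 0 := by
        by_contra hq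
        exact h (lt_of_lt_of_le (hf S' S hq) hS.2)
      rw [hq, zero_mul]
  have hsplit : ∑ S ∈ univ.filter (fun S => f S ≤ x), uu q n k S * ∑ S', q S S'
      = ∑ S ∈ univ.filter (fun S => f S < x), uu q n k S * ∑ S', q S S'
        + ∑ S ∈ univ.filter (fun S => f S = x), uu q n k S * ∑ S', q S S' := by
    rw [Finset.sum_filter, Finset.sum_filter, Finset.sum_filter, ← Finset.sum_add_distrib]
    apply Finset.sum_congr rfl
    intro S _
    rcases lt_trichotomy (f S) x with h | h | h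
    · rw [if_pos h.le, if_pos h, if_neg h.ne, add_zero]
    · rw [if_pos h.le, if_neg (by rw [h]; exact lt_irrefl x), if_pos h, zero_add]
    · rw [if_neg (not_le.mpr h), if_neg (not_lt.mpr h.le), if_neg h.ne', add_zero]
  have hexpand : ∑ S ∈ univ.filter (fun S => f S ≤ x), uu q n (k + 1) S
      = ∑ S ∈ univ.filter (fun S => f S ≤ x), uu q n k S
        - (1 / (n : ℝ)) * ∑ S ∈ univ.filter (fun S => f S ≤ x), uu q n k S * ∑ S', q S S'
        + (1 / (n : ℝ)) * ∑ S ∈ univ.filter (fun S => f S ≤ x), ∑ S', q S' S * uu q n k S' := by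
    rw [Finset.mul_sum, Finset.mul_sum, ← Finset.sum_sub_distrib, ← Finset.sum_add_distrib]
    apply Finset.sum_congr rfl
    intro S _
    show uu q n k S * (1 - (∑ S', q S S') / n) + (1 / (n : ℝ)) * ∑ S', q S' S * uu q n k S' = _
    ring
  rw [hexpand, hsplit]
  have hinv : (0 : ℝ) ≤ 1 / n := by positivity
  nlinarith [mul_le_mul_of_nonneg_left hdouble hinv]

/-- SS-1: the abstract lazy-chain level bound. -/
theorem chain_level {Ω : Type} [Fintype Ω] [DecidableEq Ω] (q : Ω → Ω → ℝ) (f : Ω → ℝ)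
    (sz : Ω → ℕ) (n : ℕ) (hn : 16 ≤ n)
    (hq0 : ∀ S S', 0 ≤ q S S') (hf : ∀ S S', q S S' ≠ 0 → f S < f S')
    (hsz : ∀ S' S, q S' S ≠ 0 → sz S' = sz S ∨ sz S' + 1 = sz S)
    (hent : ∀ S, ∑ S' ∈ univ.filter (fun S' => sz S' + 1 = sz S), q S' S ≤ 1 / 2)
    (hbal : ∀ S, ∑ S', q S' S - ∑ S', q S S' = ((sz S : ℝ) - n / 2) / n)
    (hout : ∀ S, ∑ S', q S S' ≤ n) (hszn : ∀ S, sz S ≤ n) (x : ℝ) :
    Real.sqrt n * ∑ S ∈ univ.filter (fun S => f S = x ∧ (n : ℝ) / 2 - Real.sqrt n ≤ sz S),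
      ∑ S', q S S' ≤ 10 * Fintype.card Ω := by
  obtain ⟨hN, hs4, hss⟩ := sqrt_facts n hn
  have hn0 : 0 < n := by omega
  have hNpos : (0 : ℝ) < n := by linarith
  have hG0 : 0 ≤ ∑ S ∈ univ.filter (fun S => f S = x ∧ (n : ℝ) / 2 - Real.sqrt n ≤ sz S),
      ∑ S', q S S' :=
    Finset.sum_nonneg fun S _ => Finset.sum_nonneg fun S' _ => hq0 S S'
  have hu := uu_nonneg q n hn0 hq0 hout
  have hinv : (0 : ℝ) ≤ 1 / n := by positivity
  have hstep : ∀ k : ℕ, (k : ℝ) ≤ n * Real.sqrt n →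
      ∑ S ∈ univ.filter (fun S => f S ≤ x), uu q n (k + 1) S
        ≤ ∑ S ∈ univ.filter (fun S => f S ≤ x), uu q n k S - (1 / (n : ℝ)) * ((1 / 5) *
          ∑ S ∈ univ.filter (fun S => f S = x ∧ (n : ℝ) / 2 - Real.sqrt n ≤ sz S),
            ∑ S', q S S') := by
    intro k hk
    have h1 := mass_step q f n hn0 hq0 hf hout x k
    have h2 : (1 / 5) * ∑ S ∈ univ.filter (fun S => f S = x ∧ (n : ℝ) / 2 - Real.sqrt n ≤ sz S),
        ∑ S', q S S' ≤ ∑ S ∈ univ.filter (fun S => f S = x), uu q n k S * ∑ S', q S S' := by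
      rw [Finset.mul_sum]
      calc ∑ S ∈ univ.filter (fun S => f S = x ∧ (n : ℝ) / 2 - Real.sqrt n ≤ sz S),
            (1 / 5) * ∑ S', q S S'
          ≤ ∑ S ∈ univ.filter (fun S => f S = x ∧ (n : ℝ) / 2 - Real.sqrt n ≤ sz S),
            uu q n k S * ∑ S', q S S' := by
            apply Finset.sum_le_sum
            intro S hS
            rw [Finset.mem_filter] at hS
            apply mul_le_mul_of_nonneg_right _ (Finset.sum_nonneg fun S' _ => hq0 S S')
            exact le_trans (psi_ge n hn k hk _ hS.2.2)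
              (uu_ge_psi q sz n hn hq0 hsz hent hbal hout hszn k hk S)
        _ ≤ ∑ S ∈ univ.filter (fun S => f S = x), uu q n k S * ∑ S', q S S' := by
            apply Finset.sum_le_sum_of_subset_of_nonneg
            · intro S hS
              rw [Finset.mem_filter] at hS ⊢
              exact ⟨hS.1, hS.2.1⟩
            · intro S _ _
              exact mul_nonneg (hu k S) (Finset.sum_nonneg fun S' _ => hq0 S S')
    have := mul_le_mul_of_nonneg_left h2 hinv
    linarith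
  have htel : ∀ K : ℕ, (K : ℝ) ≤ n * Real.sqrt n →
      ∑ S ∈ univ.filter (fun S => f S ≤ x), uu q n K S + K * ((1 / (n : ℝ)) * ((1 / 5) *
          ∑ S ∈ univ.filter (fun S => f S = x ∧ (n : ℝ) / 2 - Real.sqrt n ≤ sz S),
            ∑ S', q S S'))
        ≤ ∑ S ∈ univ.filter (fun S => f S ≤ x), uu q n 0 S := by
    intro K
    induction K with
    | zero => intro _; simp
    | succ K ih =>
      intro hK
      have hK' : (K : ℝ) ≤ n * Real.sqrt n := by
        have : (K : ℝ) ≤ ((K + 1 : ℕ) : ℝ) := by push_cast; linarith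
        linarith
      have h1 := ih hK'
      have h2 := hstep K hK'
      push_cast
      linarith
  have hKle : ((⌊(n : ℝ) * Real.sqrt n⌋₊ : ℕ) : ℝ) ≤ n * Real.sqrt n :=
    Nat.floor_le (by positivity)
  have hKge : (n : ℝ) * Real.sqrt n - 1 < ((⌊(n : ℝ) * Real.sqrt n⌋₊ : ℕ) : ℝ) :=
    Nat.sub_one_lt_floor _
  have hm0 : ∑ S ∈ univ.filter (fun S => f S ≤ x), uu q n 0 S ≤ Fintype.card Ω := by
    have h1 : ∀ S, uu q n 0 S = 1 := fun S => rfl
    simp only [h1]
    rw [Finset.sum_const, nsmul_eq_mul, mul_one]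
    exact_mod_cast Finset.card_le_univ _
  have hmK : 0 ≤ ∑ S ∈ univ.filter (fun S => f S ≤ x), uu q n ⌊(n : ℝ) * Real.sqrt n⌋₊ S :=
    Finset.sum_nonneg fun S _ => hu _ S
  have hfin := htel _ hKle
  have hKhalf : (n : ℝ) * Real.sqrt n / 2 ≤ ((⌊(n : ℝ) * Real.sqrt n⌋₊ : ℕ) : ℝ) := by
    nlinarith
  have hmono := mul_le_mul_of_nonneg_right hKhalf
    (by positivity : (0 : ℝ) ≤ (1 / (n : ℝ)) * ((1 / 5) *
          ∑ S ∈ univ.filter (fun S => f S = x ∧ (n : ℝ) / 2 - Real.sqrt n ≤ sz S),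
            ∑ S', q S S'))
  have heq : ((n : ℝ) * Real.sqrt n / 2) * ((1 / (n : ℝ)) * ((1 / 5) *
          ∑ S ∈ univ.filter (fun S => f S = x ∧ (n : ℝ) / 2 - Real.sqrt n ≤ sz S),
            ∑ S', q S S'))
      = Real.sqrt n * (∑ S ∈ univ.filter (fun S => f S = x ∧ (n : ℝ) / 2 - Real.sqrt n ≤ sz S),
            ∑ S', q S S') / 10 := by
    field_simp
    ring
  rw [heq] at hmono
  linarith

end chain

end Vale.Agent.Lib.P160.H47
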